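import Vale.Agent.P033.Bridge

namespace Vale.Agent.Results.P033.Circulant

open Matrix

/-- A real Hadamard matrix of order `n`: entries in `{-1, 1}` and `H Hᵀ = n I`. -/
def IsHadamard {n : ℕ} (H : Matrix (Fin n) (Fin n) ℝ) : Prop :=
  (∀ i j, H i j = 1 ∨ H i j = -1) ∧ H * Hᵀ = (n : ℝ) • (1 : Matrix (Fin n) (Fin n) ℝ)

/-- Circulant: `H i j = h ((j - i) mod n)` for some sequence `h`. -/
def IsCirculant {n : ℕ} (H : Matrix (Fin n) (Fin n) ℝ) : Prop :=
  ∃ h : ℕ → ℝ, ∀ i j : Fin n, H i j = h (((j : ℕ) + n - (i : ℕ)) % n)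

theorem result (n : ℕ) (hn : 1 ≤ n) :
    (∃ H : Matrix (Fin n) (Fin n) ℝ, IsHadamard H ∧ IsCirculant H) ↔ n = 1 ∨ n = 4 := by
  constructor
  · rintro ⟨H, ⟨hs, hH⟩, h, hh⟩
    have : NeZero n := ⟨by omega⟩
    have hsub : ∀ i j : Fin n, H i j = H 0 (j - i) := by
      intro i j
      rw [hh, hh]
      congr 1
      have hi := i.2
      rw [Fin.val_sub, Fin.val_zero, Nat.sub_zero, Nat.add_mod_right, Nat.mod_mod]
      congr 1
      omega
    refine Vale.Agent.P033.main_real (fun a => H 0 a) (fun a => hs 0 a) fun t => ?_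
    have h1 := congrFun (congrFun hH (-t)) 0
    rw [Matrix.mul_apply, Matrix.smul_apply, Matrix.one_apply] at h1
    simp only [Matrix.transpose_apply, hsub (-t), sub_neg_eq_add, neg_eq_zero, smul_eq_mul,
      mul_ite, mul_one, mul_zero] at h1
    exact h1
  · rintro (rfl | rfl)
    · refine ⟨1, ⟨fun i j => ?_, by simp⟩, fun _ => 1, fun i j => ?_⟩
      · left; rw [Subsingleton.elim i j]; simp
      · rw [Subsingleton.elim i j]; simp
    · refine ⟨!![1, 1, 1, -1; -1, 1, 1, 1; 1, -1, 1, 1; 1, 1, -1, 1], ⟨fun i j => ?_, ?_⟩,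
        fun k => if k = 3 then -1 else 1, fun i j => ?_⟩
      · fin_cases i <;> fin_cases j <;> simp
      · ext i j
        fin_cases i <;> fin_cases j <;> simp [Matrix.mul_apply, Fin.sum_univ_four] <;> norm_num
      · fin_cases i <;> fin_cases j <;> simp

end Vale.Agent.Results.P033.Circulant
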